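import Vale.Agent.P261Z.B.B0
import Vale.Agent.P261Z.C1.Okz
import Vale.Agent.P261Z.Ig.Igx
import Vale.Agent.P261Z.C2.Cyc

/-!
# P261Z, block F: vertices in normal form
-/

set_option linter.unusedSectionVars false

noncomputable section

open Matrix

namespace P261.Fl

open P261.C2 P261.Ig P261.Ig.IgxAux

variable {p : ℕ} [hp : Fact p.Prime] {K L : Type} [CommRing K] [CommRing L] {h c : ℕ}

/-- the reindexing -/
def rx (h c : ℕ) : Fin c ⊕ Fin h ≃ Fin (h + c) := (Equiv.sumComm _ _).trans finSumFinEquiv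

/-- the vertex of a basis which is indexed by `Fin (h + c)` -/
def vtx (a : Fin c → WittVector p K) (μ : Matrix (Fin c ⊕ Fin h) (Fin (h + c)) (WittVector p K))
    (ν : Matrix (Fin (h + c)) (Fin c ⊕ Fin h) (WittVector p K)) : LV p (Fin c) h K :=
  ⟨a, true, μ.submatrix id (rx h c), ν.submatrix (rx h c) id, 0, 0⟩

theorem vtx_map (f : K →+* L) (a : Fin c → WittVector p K)
    (μ : Matrix (Fin c ⊕ Fin h) (Fin (h + c)) (WittVector p K))
    (ν : Matrix (Fin (h + c)) (Fin c ⊕ Fin h) (WittVector p K)) :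
    (vtx a μ ν).map f = vtx (fun i => wm p f (a i)) (mw f μ) (mw f ν) :=
  LV.ext rfl rfl rfl rfl (funext fun _ => funext fun _ => funext fun _ => map_zero f) rfl

/-- every vertex with a lattice and without labels is of this form -/
theorem eq_vtx {v : LV p (Fin c) h K} (h1 : v.lat = true) (h2 : v.φ = 0) (h3 : v.ix = 0) :
    v = vtx v.a (v.μ.submatrix id (rx h c).symm) (v.ν.submatrix (rx h c).symm id) :=
  LV.ext rfl h1 (by ext1 i j; simp [vtx]) (by ext1 i j; simp [vtx]) h2 h3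

theorem adj_mem {R ι : Type} [CommRing R] [Fintype ι] [DecidableEq ι] {S : Subring R}
    {A : Matrix ι ι R} (hA : ∀ i j, A i j ∈ S) (i j : ι) : A.adjugate i j ∈ S := by
  have h := S.subtype.map_adjugate (Matrix.of fun i j => (⟨A i j, hA i j⟩ : S))
  exact (show _ = A.adjugate i j from congrFun (congrFun h i) j) ▸ Subtype.property _

theorem Au_mem {F : Fil p K} {n : ℕ} {u : ℕ → K} (hu : ∀ i, u i ∈ F.F 0) : F.MW 0 (Au p n u) := by
  intro i j
  simp only [Au, Cm, of_apply]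
  split_ifs
  exacts [Fil.WL_one, Fil.WL_natCast p, neg_mem (Fil.WL_tm (hu i)), zero_mem _]

theorem Au_inv {F : Fil p K} {n : ℕ} (hn : 0 < n) {u : ℕ → K} (hu : F.MW 0 (Au p n u)) :
    ∃ B, F.MW 0 B ∧ Au p n u * B = (p : WittVector p K) • (1 : Matrix _ _ (WittVector p K)) := by
  obtain ⟨m, rfl⟩ : ∃ m, n = m + 1 := ⟨n - 1, by omega⟩
  refine ⟨((-1 : WittVector p K) ^ m) • (Au p (m + 1) u).adjugate, fun i j => ?_, ?_⟩
  · exact F.W0.mul_mem (F.W0.pow_mem (neg_mem (one_mem _)) m) (adj_mem (S := F.W0) hu i j)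
  · rw [Matrix.mul_smul, mul_adjugate, Au, Cy.det_cm, smul_smul, ← mul_assoc, ← mul_pow]
    simp

variable [Pf p K] {F : Fil p K}

section gen

variable {E ι : Type} [Fintype E] [DecidableEq E] [Fintype ι] [DecidableEq ι]
  {A B : Matrix ι ι (WittVector p K)} {μ : Matrix (E ⊕ Fin h) ι (WittVector p K)}
  {ν : Matrix ι (E ⊕ Fin h) (WittVector p K)} {a : E → WittVector p K}

theorem itw_Ua (hh : 0 < h) (H : Iso (V0 p E h _) A μ ν) (a : E → WittVector p K) :
    A * (ν * Ua h a).map (si p K) = ν * Ua h a * Nm p h fun l => Dop p K h (a l) := by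
  obtain ⟨hε, he, e⟩ := itw_frame hh (H.symm.eq.trans (congrArg (ν * ·) Nm_zero.symm))
  have h5 := frame_itw hε (Vop_move hε he a)
  rw [← frame_Ua hε, e] at h5
  simpa only [Pi.zero_apply, zero_add] using h5

theorem iso_Ua (hh : 0 < h) (H : Iso (V0 p E h _) A μ ν) (a : E → WittVector p K) :
    Iso A (Nm p h fun l => Dop p K h (a l)) (ν * Ua h a) (Ua h (-a) * μ) where
  mn := by
    rw [Matrix.mul_assoc, ← Matrix.mul_assoc (Ua h a), Ua_mul, add_neg_cancel, Ua_zero,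
      Matrix.one_mul, H.nm]
  nm := by
    rw [Matrix.mul_assoc, ← Matrix.mul_assoc μ, H.mn, Matrix.one_mul, Ua_mul, neg_add_cancel,
      Ua_zero]
  eq := itw_Ua hh H a

omit [Pf p K] in
theorem Nm_inv {x : E → WittVector p K} (hx : ∀ i, x i ∈ F.WL 1) :
    ∃ N, F.MW 1 N ∧ Nm p h x * N = (p : WittVector p K) • (1 : Matrix _ _ (WittVector p K)) := by
  have e : Nm p h x * (Nm p h x - V0 p E h _) = Nm p h x - V0 p E h _ := by
    rw [show Nm p h x - V0 p E h _ = _ from add_sub_cancel_left _ _, Nm, V0, fromBlocks_add,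
      fromBlocks_multiply]
    simp
  have hB : F.MW 0 (B0 p E h (WittVector p K)) := by
    rintro (i | i) (j | j)
    · simp only [B0, fromBlocks_apply₁₁, Matrix.smul_apply, Matrix.one_apply, smul_eq_mul]
      split_ifs
      · rw [mul_one]; exact Fil.WL_natCast p
      · rw [mul_zero]; exact zero_mem _
    · exact zero_mem _
    · exact zero_mem _
    · simp only [B0, fromBlocks_apply₂₂, of_apply]
      split_ifs
      exacts [Fil.WL_natCast p, Fil.WL_one, zero_mem _]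
  have hV : F.MW 1 (V0 p E h (WittVector p K)) := by
    rw [← Nm_zero]
    exact Fil.MW_Nm zero_le_one fun _ => zero_mem _
  refine ⟨B0 p E h _ - (Nm p h x - V0 p E h _) * B0 p E h _, fun i j => ?_, ?_⟩
  · refine sub_mem (Fil.WL_le (hB i j) zero_le_one) (Fil.WL_le (Fil.WL_mmul
      (fun i j => sub_mem (Fil.MW_Nm zero_le_one hx i j) (hV i j)) hB i j) (add_zero _).le)
  · rw [Matrix.mul_sub, ← Matrix.mul_assoc, e, Matrix.sub_mul, sub_sub_cancel, C1.V0_mul_B0]

/-- bounded frames have weight at most two -/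
theorem bnd (hF : F.Closed) (hh : 0 < h) (H : Iso (V0 p E h _) A μ ν) (hA : F.MW 0 A)
    (hB : F.MW 0 B) (hAB : A * B = (p : WittVector p K) • (1 : Matrix ι ι (WittVector p K)))
    (ha : ∀ i, Dop p K h (a i) ∈ F.WL 1) {t : ℝ} (h1 : F.MW t (Ua h (-a) * μ))
    (h2 : F.MW t (ν * Ua h a)) : F.MW 2 (Ua h (-a) * μ) ∧ F.MW 2 (ν * Ua h a) := by
  obtain ⟨N, hN, e⟩ := Nm_inv (h := h) ha
  have H1 := iso_Ua hh H a
  exact ⟨fun i j => Fil.WL_le (hF.B1' (fun i j => Fil.WL.lin (h1 i j)) (Fil.MW_Nm zero_le_one ha)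
      hB (by norm_num) hAB H1.symm.eq i j) (by norm_num),
    fun i j => Fil.WL_le (hF.B1' (fun i j => Fil.WL.lin (h2 i j)) hA hN (by norm_num) e H1.eq i j)
      (by norm_num)⟩

theorem eq_A (H : Iso (V0 p E h _) A μ ν) : ν * V0 p E h (WittVector p K) * μ.map (si p K) = A := by
  rw [Matrix.mul_assoc, H.eq, ← Matrix.mul_assoc, H.nm, Matrix.one_mul]

theorem eq_B (H : Iso (V0 p E h _) A μ ν)
    (hAB : A * B = (p : WittVector p K) • (1 : Matrix ι ι (WittVector p K))) :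
    ν.map (si p K) * B0 p E h (WittVector p K) * μ = B := by
  have e : ν.map (si p K) * B0 p E h (WittVector p K) * μ * A = (p : WittVector p K) • 1 := by
    rw [Matrix.mul_assoc, ← H.eq, Matrix.mul_assoc, ← Matrix.mul_assoc (B0 p E h _), C1.B0_mul_V0,
      Matrix.smul_mul, Matrix.one_mul, Matrix.mul_smul, H.symm.si_mn]
  have e2 := congrArg (· * B) e
  simp only [Matrix.mul_assoc _ A, hAB, Matrix.mul_smul, Matrix.smul_mul, Matrix.one_mul,
    Matrix.mul_one] at e2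
  exact Matrix.ext fun i j => p_mul_inj (congrFun (congrFun e2 i) j)

/-- the difference of two lifts with bounded frames is bounded -/
theorem sub_mem_of (hh : 0 < h) (e : μ * ν = 1) {a' : E → WittVector p K} {s t : ℝ}
    (h1 : F.MW s (Ua h (-a') * μ)) (h2 : F.MW t (ν * Ua h a)) (l : E) :
    a l - a' l ∈ F.WL (s + t) := by
  have := Fil.WL_mmul h1 h2 (.inl l) (.inr ⟨0, hh⟩)
  rw [Matrix.mul_assoc, ← Matrix.mul_assoc μ, e, Matrix.one_mul, Ua_mul] at this
  rw [sub_eq_neg_add]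
  exact this

end gen

variable {A B : Matrix (Fin (h + c)) (Fin (h + c)) (WittVector p K)}
  {μ : Matrix (Fin c ⊕ Fin h) (Fin (h + c)) (WittVector p K)}
  {ν : Matrix (Fin (h + c)) (Fin c ⊕ Fin h) (WittVector p K)} {a : Fin c → WittVector p K}

theorem mA_vtx' : (vtx a μ ν).mA =
    (ν * V0 p (Fin c) h (WittVector p K) * μ.map (si p K)).submatrix (rx h c) (rx h c) := rfl

theorem mB_vtx' : (vtx a μ ν).mB =
    (ν.map (si p K) * B0 p (Fin c) h (WittVector p K) * μ).submatrix (rx h c) (rx h c) := rfl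

theorem mA_vtx (H : Iso (V0 p (Fin c) h _) A μ ν) :
    (vtx a μ ν).mA = A.submatrix (rx h c) (rx h c) := by rw [mA_vtx', eq_A H]

theorem inv_vtx : (vtx a μ ν).μ * (vtx a μ ν).ν = μ * ν :=
  (submatrix_mul_equiv μ ν id (rx h c) id).trans (submatrix_id_id _)

/-- a vertex with the matrix `A` is an isomorphism -/
theorem iso_of_vtx (h1 : (vtx a μ ν).μ * (vtx a μ ν).ν = 1)
    (h2 : (vtx a μ ν).mA = A.submatrix (rx h c) (rx h c)) : Iso (V0 p (Fin c) h _) A μ ν := by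
  have e1 : μ * ν = 1 := inv_vtx.symm.trans h1
  have e2 : ν * μ = 1 := (mul_eq_one_comm_of_equiv (rx h c)).1 e1
  refine ⟨e1, e2, ?_⟩
  have e3 : ν * V0 p (Fin c) h (WittVector p K) * μ.map (si p K) = A := by
    ext1 i j
    simpa using congrFun (congrFun (mA_vtx'.symm.trans h2) ((rx h c).symm i)) ((rx h c).symm j)
  rw [← e3, Matrix.mul_assoc, ← Matrix.mul_assoc μ, e1, Matrix.one_mul]

theorem isZ_vtx : (vtx a μ ν).IsZ F ↔ (∀ i, Dop p K h (a i) ∈ F.WL 1) ∧ μ * ν = 1 ∧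
    F.MW 0 (ν * V0 p (Fin c) h (WittVector p K) * μ.map (si p K)) ∧ F.MW 0 (ν.map (si p K) * B0 p (Fin c) h (WittVector p K) * μ) ∧
    F.MW 3 (Ua h (-a) * μ) ∧ F.MW 3 (ν * Ua h a) := by
  refine ⟨fun H => ⟨H.isA, inv_vtx.symm.trans H.inv, fun i j => ?_, fun i j => ?_, fun i j => ?_,
    fun i j => ?_⟩, fun ⟨h1, h2, h3, h4, h5, h6⟩ => ⟨h1, rfl, inv_vtx.trans h2,
      fun i j => h3 _ _, fun i j => h4 _ _, fun i j => h5 i (rx h c j), fun i j => h6 (rx h c i) j⟩⟩
  · simpa [mA_vtx'] using H.hA ((rx h c).symm i) ((rx h c).symm j)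
  · simpa [mB_vtx'] using H.hB ((rx h c).symm i) ((rx h c).symm j)
  · obtain ⟨j, rfl⟩ := (rx h c).surjective j
    exact H.b1 i j
  · obtain ⟨i, rfl⟩ := (rx h c).surjective i
    exact H.b2 i j

/-- **ZOF**: bounded vertices in normal form have the colour `Z` -/
theorem zof (hF : F.Closed) (hh : 0 < h) {u : ℕ → K}
    (H : Iso (V0 p (Fin c) h _) (Au p (h + c) u) μ ν) (hu : F.MW 0 (Au p (h + c) u))
    (ha : ∀ i, Dop p K h (a i) ∈ F.WL 1) {t : ℝ} (h1 : F.MW t (Ua h (-a) * μ))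
    (h2 : F.MW t (ν * Ua h a)) : (vtx a μ ν).IsZ F := by
  obtain ⟨B, hB, e⟩ := Au_inv (by omega) hu
  obtain ⟨h3, h4⟩ := bnd hF hh H hu hB e ha h1 h2
  exact isZ_vtx.2 ⟨ha, H.mn, (eq_A H).symm ▸ hu, (eq_B H e).symm ▸ hB, h3.le (by norm_num),
    h4.le (by norm_num)⟩

/-- the inverse of the first parameter -/
theorem inv_u (hh : 1 ≤ h) (hc : 0 < c) {u : ℕ → K} (hu : ∀ i < h, u i = 0)
    (H : Iso (V0 p (Fin c) h _) (Au p (h + c) u) μ ν)
    {Y : Matrix (Fin c ⊕ Fin h) (Fin (h + c)) (WittVector p K)}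
    (hY : ∀ a b, (Y * ν) (.inl a) (.inl b) = if a = b then 1 else 0) :
    u h * ∑ a, -rt p K (c0 (ν ⟨h + c - 1, by omega⟩ (.inl a))) *
      c0 (Y (.inl a) (Fin.natAdd h ⟨0, hc⟩)) = 1 := by
  obtain ⟨-, -, h4, -⟩ := vu p h c K u hh hc hu μ ν H
  have h6 : (Matrix.of fun a i : Fin c => c0 (Y (.inl a) (Fin.natAdd h i))) *
      (Matrix.of fun i a : Fin c => c0 (ν (Fin.natAdd h i) (.inl a))) = 1 := by
    ext a b
    have := congrArg c0 (hY a b)
    rw [Matrix.mul_apply, map_sum, apply_ite c0, map_one, map_zero, Fin.sum_univ_add,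
      Finset.sum_eq_zero fun i _ => by
        rw [map_mul, show c0 (ν (Fin.castAdd c i) (.inl b)) = 0 from h4 i b, mul_zero],
      zero_add] at this
    rw [Matrix.mul_apply, Matrix.one_apply]
    simpa only [map_mul, of_apply] using this
  have h7 := mul_eq_one_comm.1 h6
  have := congrFun (congrFun h7 ⟨0, hc⟩) ⟨0, hc⟩
  rw [Matrix.mul_apply, Matrix.one_apply_eq] at this
  rw [← this, Finset.mul_sum]
  refine Finset.sum_congr rfl fun a _ => ?_
  have h1 : ∑ k, Au p (h + c) u (Fin.natAdd h ⟨0, hc⟩) k * si p K (ν k (.inl a)) =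
      ν (Fin.natAdd h ⟨0, hc⟩) (.inl a) := by
    have := congrFun (congrFun H.symm.eq (Fin.natAdd h ⟨0, hc⟩)) (.inl a)
    simpa [Matrix.mul_apply, V0, Matrix.one_apply] using this
  rw [of_apply, of_apply, ← h1, Au, row_succ _ _ _ ⟨h - 1, by omega⟩ ⟨h + c - 1, by omega⟩
    (by simp; omega) (by simp; omega), if_neg (by simp; omega), map_add, map_mul, map_neg, c0_tm,
    c0_si, c0_si, show c0 (ν ⟨h - 1, by omega⟩ (.inl a)) = 0 from h4 ⟨h - 1, by omega⟩ a, map_zero]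
  change _ = (0 + -u h * _) * _
  ring

/-- **VI**: the weight of the inverse of the first parameter -/
theorem inv_mem (hh : 1 ≤ h) (hc : 0 < c) {u : ℕ → K} (hu : ∀ i < h, u i = 0)
    (H : Iso (V0 p (Fin c) h _) (Au p (h + c) u) μ ν) (hZ : (vtx a μ ν).IsZ F) {w : K}
    (hw : u h * w = 1) : w ∈ F.F 6 := by
  obtain ⟨-, -, -, -, h5, h6⟩ := isZ_vtx.1 hZ
  have e := inv_u hh hc hu H (Y := Ua h (-a) * μ) fun i j => by
    rw [Matrix.mul_assoc, H.mn, Matrix.mul_one]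
    simp [Ua, Matrix.one_apply]
  rw [← mul_one w, ← e, ← mul_assoc, mul_comm w, hw, one_mul]
  refine sum_mem fun l _ => Fil.mul_le (s := 3) (t := 3) (neg_mem ?_) ?_ (by norm_num)
  · have h7 := Fil.mem_WL.1 (Fil.WL_si (h6 ⟨h + c - 1, by omega⟩ (.inl l))) 0
    have e1 : (ν * Ua h a) ⟨h + c - 1, by omega⟩ (.inl l) = ν ⟨h + c - 1, by omega⟩ (.inl l) := by
      simp [Ua, Matrix.mul_apply, Matrix.one_apply]
    rw [e1, pow_zero, one_mul] at h7
    exact Fil.le h7 (div_le_self (by norm_num) (by linarith [two_le_p (p := p)]))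
  · simpa using Fil.mem_WL.1 (h5 (.inl l) _) 0

end P261.Fl
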