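import Vale.Agent.P261Z.F.Main
import Vale.Agent.P261Z.Ig.Model

/-!
# P261Z, block F: the filtration of the concrete model
-/

set_option linter.unusedSectionVars false

noncomputable section

open Matrix MvPowerSeries

namespace P261.Fl

open P261.C2 P261.Ig Vale.Agent.P261Z Vale.Agent.P261Z.N

variable {p : ℕ} [hp : Fact p.Prime] {h c : ℕ} {K : Type} [Field K] [Pf p K]

theorem int_oA (a : A0 p c K) : IsIntegral (RR c K) (oA p h c K a) := by
  obtain ⟨k, r, rfl⟩ := PH.exists_rt a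
  rw [map_rt_pow]
  exact int_rt isIntegral_algebraMap k

/-- the data of the concrete model -/
def nd (h1 : 1 ≤ h) (hc : 0 < c) (vi : AA p h c K)
    (hv : algebraMap (RR c K) (AA p h c K) (X ⟨0, hc⟩) * vi = 1)
    (loc : ∀ x : AA p h c K, ∃ N : ℕ,
      IsIntegral (RR c K) (algebraMap (RR c K) (AA p h c K) (X ⟨0, hc⟩) ^ N * x)) :
    ND p h c (X ⟨0, hc⟩ : RR c K) (AA p h c K) where
  hh := h1
  hc := hc
  u i := oA p h c K (uu p h c K i)
  μ := muA p h c K
  ν := nuA p h c K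
  iso := by
    rw [← mw_Au]
    exact UN.iso _ _ _
  u0 i hi := by rw [uu, exh, dif_neg fun e => by omega, map_zero, map_zero, map_zero]
  uint _ := int_oA _
  uh := by
    rw [← map_pow, uu, rt_pow_pp, alg_eq]
    exact congrArg (fun r => oA p h c K (algebraMap _ _ r)) (exh_add h X (⟨0, hc⟩ : Fin c))
  vi := vi
  v_vi := hv
  loc := loc
  top S h0 h2 := UN.eq_top S h0 fun a => by
    obtain ⟨k, r, rfl⟩ := PH.exists_rt a
    rw [map_rt_pow]
    induction k with
    | zero => exact h2 r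
    | succ k ih => rw [pow_succ']; exact h0 _ ih

variable {h1 : 1 ≤ h} {hc : 0 < c} {vi : AA p h c K}
  (hv : algebraMap (RR c K) (AA p h c K) (X ⟨0, hc⟩) * vi = 1)
  (loc : ∀ x : AA p h c K, ∃ N : ℕ,
    IsIntegral (RR c K) (algebraMap (RR c K) (AA p h c K) (X ⟨0, hc⟩) ^ N * x))

theorem nd_gam (g : Gam p (Fin c) h K) : Fil.Maps (gam p h c K g : AA p h c K →+* AA p h c K)
    (nd h1 hc vi hv loc).b (nd h1 hc vi hv loc).b := by
  have H : ∀ (g : Gam p (Fin c) h K) i j,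
      (si p _ ^ h) (mw ((oA p h c K).comp (kap p c K)) g.mat i j) =
        mw ((oA p h c K).comp (kap p c K)) g.mat i j := fun g i j => by
    rw [mw_apply, ← wm_si_pow, (end_struct g.iso.eq).2.2.2]
  have H1 : ∀ (g : Gam p (Fin c) h K) i j n,
      IsIntegral (RR c K) ((mw ((oA p h c K).comp (kap p c K)) g.mat i j).coeff n) :=
    fun g i j n => by
      rw [mw_coeff, RingHom.comp_apply]
      exact int_oA _
  refine (nd h1 hc vi hv loc).stabΓ (gam p h c K g)
    (G := mw ((oA p h c K).comp (kap p c K)) g.mat)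
    (G' := mw ((oA p h c K).comp (kap p c K)) g⁻¹.mat) ?_ ?_ (H1 g) (H1 g⁻¹) (H g) (H g⁻¹)
    fun j l => ?_
  · rw [gam_coe]
    exact act_mu _ _ g
  · rw [← mw_mul, g.iso.nm, mw_one]
  · rw [mw_apply, Gam.inr_inl, map_zero]

variable {G : Type} [Group G] [TopologicalSpace G] {A : RG p h c G K} (Θ : TGd A h1)

theorem nd_Phi (g : G) : Fil.Maps (Phi Θ g) (nd h1 hc vi hv loc).b (nd h1 hc vi hv loc).b ∧
    ∀ l, wm p (Phi Θ g) ((nd h1 hc vi hv loc).a l) - (nd h1 hc vi hv loc).a l ∈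
      (nd h1 hc vi hv loc).b.WL 1 :=
  (nd h1 hc vi hv loc).stabG (φ := A.ph g) (Phi_alg Θ g) (Phi_mu Θ g) (Phi_nu Θ g)
    (fun _ _ _ => int_oA _) fun _ _ _ => int_oA _

variable [Algebra (ZMod p) K]

/-- **block F** for the concrete model -/
def fld {γ : Gam p (Fin c) h K → AA p h c K →ₐ[RR c K] AA p h c K} (e : ∀ δ, γ δ = gam p h c K δ) :
    P.FlD p (X ⟨0, hc⟩ : RR c K) vi (fun g => Phi Θ g) γ :=
  (nd h1 hc vi hv loc).fld (fun g => (nd_Phi hv loc Θ g).1) fun δ => e δ ▸ nd_gam hv loc δ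

theorem fld_b {γ : Gam p (Fin c) h K → AA p h c K →ₐ[RR c K] AA p h c K}
    (e : ∀ δ, γ δ = gam p h c K δ) : (fld hv loc Θ e).b = (nd h1 hc vi hv loc).b := rfl

end P261.Fl
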