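import Vale.Agent.P261Z.W.Pole

/-!
# P261Z, block F: filtrations generated by the integral elements and finitely many elements
-/

noncomputable section

namespace P261.Fl

variable {p : ℕ} [hp : Fact p.Prime] {R AA L ι : Type} [CommRing R] [CommRing AA] [Algebra R AA]
  [CommRing L]

variable (p R) in
/-- the closed filtration generated by the integral elements and the `g i` -/
def gF (g : ι → AA) (τ : ι → ℝ) : Fil p AA :=
  Fil.gen p (Sum.elim (fun x : integralClosure R AA => (x : AA)) g) (Sum.elim (fun _ => 0) τ)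

variable {g : ι → AA} {τ : ι → ℝ}

omit hp in
theorem closed_gF : (gF p R g τ).Closed := Fil.closed_gen

omit hp in
theorem int_gF {x : AA} (hx : IsIntegral R x) : x ∈ (gF p R g τ).F 0 :=
  Fil.mem_gen (a := Sum.elim (fun x : integralClosure R AA => (x : AA)) g)
    (τ := Sum.elim (fun _ => 0) τ) (.inl ⟨x, hx⟩)

omit hp in
theorem g_gF (i : ι) : g i ∈ (gF p R g τ).F (τ i) :=
  Fil.mem_gen (a := Sum.elim (fun x : integralClosure R AA => (x : AA)) g)
    (τ := Sum.elim (fun _ => 0) τ) (.inr i)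

omit hp in
theorem gF_maps {G : Fil p L} (hG : G.Closed) {f : AA →+* L}
    (h0 : ∀ x, IsIntegral R x → f x ∈ G.F 0) (h1 : ∀ i, f (g i) ∈ G.F (τ i)) :
    Fil.Maps f (gF p R g τ) G :=
  (Fil.gen_maps hG).2 fun
    | .inl x => h0 _ x.2
    | .inr i => h1 i

theorem int_rt [Pf p AA] {x : AA} (hx : IsIntegral R x) (k : ℕ) : IsIntegral R ((rt p AA ^ k) x) :=
  IsIntegral.of_pow (pow_pos p_pos k) (by rwa [rt_pow_pp])

variable [Fintype ι]

variable (p g τ) in
/-- monomials of weight at most `w` -/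
def Mon (w : ℝ) : Set AA :=
  {y | ∃ (k : ℕ) (a : ι → ℕ), y ^ p ^ k = ∏ i, g i ^ a i ∧ ∑ i, a i * τ i ≤ p ^ k * w}

theorem Mon.mul {s t : ℝ} {x y : AA} (hx : x ∈ Mon p g τ s) (hy : y ∈ Mon p g τ t) :
    x * y ∈ Mon p g τ (s + t) := by
  obtain ⟨k, a, e, h⟩ := hx
  obtain ⟨k', a', e', h'⟩ := hy
  refine ⟨k + k', fun i => a i * p ^ k' + a' i * p ^ k, ?_, ?_⟩
  · rw [mul_pow, pow_add, pow_mul x, mul_comm (p ^ k), pow_mul y, e, e', ← Finset.prod_pow,
      ← Finset.prod_pow, ← Finset.prod_mul_distrib]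
    simp only [pow_add, pow_mul]
  · have h1 := mul_le_mul_of_nonneg_left h (pow_pos (p_pos' (p := p)) k').le
    have h2 := mul_le_mul_of_nonneg_left h' (pow_pos (p_pos' (p := p)) k).le
    rw [Finset.mul_sum] at h1 h2
    calc _ = ∑ i, (p : ℝ) ^ k' * (a i * τ i) + ∑ i, (p : ℝ) ^ k * (a' i * τ i) := by
          rw [← Finset.sum_add_distrib]
          exact Finset.sum_congr rfl fun i _ => by push_cast; ring
      _ ≤ _ := by rw [pow_add]; linarith

variable [Pf p AA]

variable (p R g τ) in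
/-- the span of the monomials -/
def monF : Fil p AA where
  F t := (Submodule.span (integralClosure R AA) (Mon p g τ t)).toAddSubgroup
  mono := fun _ _ h => Submodule.span_mono fun _ ⟨k, a, e, H⟩ =>
    ⟨k, a, e, H.trans (mul_le_mul_of_nonneg_left h (pow_pos p_pos' k).le)⟩
  one_mem := Submodule.subset_span ⟨0, 0, by simp, by simp⟩
  mul_mem := fun hx hy => by
    have := Submodule.mul_mem_mul hx hy
    rw [Submodule.span_mul_span] at this
    exact Submodule.span_mono (by rintro _ ⟨x, hx, y, hy, rfl⟩; exact Mon.mul hx hy) this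
  root := fun {t x} hx => by
    rw [← rt_pow' (p := p) x]
    generalize x ^ p = z at hx
    change _ ∈ Submodule.span _ _
    induction hx using Submodule.span_induction with
    | mem y hy =>
      obtain ⟨k, a, e, H⟩ := hy
      exact Submodule.subset_span ⟨k + 1, a, by rw [pow_succ', pow_mul, rt_pow, e], by
        rwa [pow_succ, mul_assoc]⟩
    | zero => rw [map_zero]; exact zero_mem _
    | add _ _ _ _ h1 h2 => rw [map_add]; exact add_mem h1 h2
    | smul o y _ h1 =>
      rw [Algebra.smul_def, map_mul]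
      exact Submodule.smul_mem _ (⟨_, IsIntegral.of_pow (p_pos (p := p))
        (by rw [rt_pow]; exact o.2)⟩ : integralClosure R AA) h1

theorem gF_le {t : ℝ} {x : AA} (hx : x ∈ (gF p R g τ).F t) :
    x ∈ Submodule.span (integralClosure R AA) (Mon p g τ (t + 1)) := by
  classical
  refine gF_maps (G := (monF p R g τ).cl p_pos) (f := RingHom.id AA) (Fil.closed_cl _)
    (fun y hy => Fil.le_cl ?_) (fun i => Fil.le_cl (Submodule.subset_span ?_)) t x hx 1 one_pos
  · rw [RingHom.id_apply, ← mul_one y]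
    exact Submodule.smul_mem _ (⟨y, hy⟩ : integralClosure R AA) (monF p R g τ).one_mem
  · exact ⟨0, Pi.single i 1, by simp [Pi.single_apply, pow_ite], by simp [Pi.single_apply]⟩

/-- rounding of the exponents -/
theorem round {v : AA} (hv : IsIntegral R v) {M : ℕ} (hM : ∀ i, IsIntegral R (v ^ M * g i))
    (hτ : ∀ i, 0 ≤ τ i) (n : ℕ) {T : Subring AA} (hT : ∀ i, g i ^ p ^ n ∈ T) {w : ℝ} {y : AA}
    (hy : y ∈ Mon p g τ w) : ∃ o z, IsIntegral R o ∧ z ∈ T ∧ z ∈ (gF p R g τ).F w ∧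
      v ^ (M * p ^ n * Fintype.card ι) * y = o * z := by
  obtain ⟨k, a, e, H⟩ := hy
  have h0 : 0 < p ^ (n + k) := pow_pos p_pos _
  refine ⟨v ^ (M * p ^ n * Fintype.card ι) * (rt p AA ^ k) (∏ i, g i ^ (a i % p ^ (n + k))),
    ∏ i, g i ^ (p ^ n * (a i / p ^ (n + k))), IsIntegral.of_pow (pow_pos (p_pos (p := p)) k) ?_,
    prod_mem fun i _ => by rw [pow_mul]; exact pow_mem (hT i) _,
    Fil.le (Fil.prod_mem fun i _ => Fil.pow_mem (g_gF i) _) ?_, ?_⟩
  · rw [mul_pow, rt_pow_pp, ← pow_mul, mul_right_comm, pow_mul, ← Finset.card_univ,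
      ← Finset.prod_const, ← Finset.prod_mul_distrib]
    refine IsIntegral.prod _ fun i _ => ?_
    obtain ⟨d, hd⟩ := Nat.exists_eq_add_of_le (Nat.mod_lt (a i) h0).le
    rw [mul_assoc, ← pow_add p, show v ^ (M * p ^ (n + k)) = v ^ (M * (a i % p ^ (n + k) + d)) by
      rw [← hd], mul_add, pow_add, mul_right_comm, pow_mul, ← mul_pow]
    exact ((hM i).pow _).mul (hv.pow _)
  · refine le_of_mul_le_mul_left (le_trans ?_ H) (pow_pos p_pos' k)
    rw [Finset.mul_sum]
    refine Finset.sum_le_sum fun i _ => ?_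
    rw [← mul_assoc]
    refine mul_le_mul_of_nonneg_right ?_ (hτ i)
    have := Nat.mul_div_le (a i) (p ^ (n + k))
    rw [pow_add, mul_comm (p ^ n), mul_assoc, mul_comm (p ^ k) (p ^ n), ← pow_add] at this
    exact_mod_cast this
  · rw [mul_assoc (v ^ _)]
    congr 1
    refine pow_pp_inj (p := p) k ?_
    rw [e, mul_pow, rt_pow_pp, ← Finset.prod_pow, ← Finset.prod_mul_distrib]
    refine Finset.prod_congr rfl fun i _ => ?_
    rw [← pow_mul, ← pow_add, mul_right_comm, ← pow_add p, Nat.mod_add_div]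

/-- **GEN** -/
theorem gen_gF {v : AA} (hv : IsIntegral R v) {M : ℕ} (hM : ∀ i, IsIntegral R (v ^ M * g i))
    (hτ : ∀ i, 0 ≤ τ i) (n : ℕ) : ∃ C : ℕ, ∀ T : Subring AA, (∀ i, g i ^ p ^ n ∈ T) →
      ∀ β, ∀ z ∈ (gF p R g τ).F β, v ^ C * z ∈
        Submodule.span (integralClosure R AA) {y | y ∈ T ∧ y ∈ (gF p R g τ).F (β + C)} := by
  refine ⟨M * p ^ n * Fintype.card ι + 1, fun T hT β z hz => ?_⟩
  rw [← LinearMap.mulLeft_apply (integralClosure R AA) _ z, ← Submodule.mem_comap]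
  refine Submodule.span_le.2 (fun y hy => ?_) (gF_le hz)
  obtain ⟨o, z, h1, h2, h3, e⟩ := round hv hM hτ n hT hy
  rw [SetLike.mem_coe, Submodule.mem_comap, LinearMap.mulLeft_apply, pow_succ', mul_assoc v, e,
    ← mul_assoc v]
  refine Submodule.smul_mem _ (⟨_, hv.mul h1⟩ : integralClosure R AA)
    (Submodule.subset_span ⟨h2, Fil.le h3 ?_⟩)
  push_cast
  have : (0 : ℝ) ≤ M * p ^ n * Fintype.card ι := by positivity
  linarith

end P261.Fl
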