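import Vale.Agent.P261Z.F.Vtx
import Vale.Agent.P261Z.F.Gen
import Vale.Agent.P261Z.C2.Rec
import Vale.Agent.P261Z.P.Defs

/-!
# P261Z, block F: the filtration on the big ring
-/

set_option linter.unusedSectionVars false

noncomputable section

open Matrix

namespace P261.Fl

open P261.C2 P261.Ig

variable {p : ℕ} [hp : Fact p.Prime] {K L : Type} [CommRing K] [CommRing L] {h c : ℕ}

section aux

omit hp in
theorem closed_scale {F : Fil p K} (hF : F.Closed) {s : ℝ} (hs : 0 ≤ s) : (F.scale s hs).Closed :=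
  fun t x H => hF _ _ fun ε hε => Fil.le (F := F) (H (ε / (s + 1)) (by positivity)) (by
    have : s * (ε / (s + 1)) ≤ ε := by
      rw [← mul_div_assoc, div_le_iff₀ (by positivity)]
      nlinarith
    linarith [mul_add s t (ε / (s + 1))])

/-- the elements of finite weight -/
def finF (F : Fil p K) : Fil p K where
  F _ :=
    { carrier := {y | ∃ t, y ∈ F.F t}
      add_mem' := fun ⟨s, hs⟩ ⟨t, ht⟩ =>
        ⟨max s t, add_mem (Fil.le hs (le_max_left _ _)) (Fil.le ht (le_max_right _ _))⟩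
      zero_mem' := ⟨0, zero_mem _⟩
      neg_mem' := fun ⟨s, hs⟩ => ⟨s, neg_mem hs⟩ }
  mono := fun _ _ _ => le_rfl
  one_mem := ⟨0, F.one_mem⟩
  mul_mem := fun ⟨_, hs⟩ ⟨_, ht⟩ => ⟨_, F.mul_mem hs ht⟩
  root := fun ⟨s, hs⟩ => ⟨s / p, F.root (by rwa [mul_div_cancel₀ _ p_pos'.ne'])⟩

theorem finF_WL {F : Fil p K} {t : ℝ} {x : WittVector p K} (hx : x ∈ F.WL t) :
    x ∈ (finF F).WL 0 := Fil.mem_WL.2 fun j => ⟨_, Fil.mem_WL.1 hx j⟩

variable [Pf p K] {F : Fil p K}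

theorem finF_Dop {x : WittVector p K} (hx : Dop p K h x ∈ (finF F).WL 0) : x ∈ (finF F).WL 0 := by
  refine Fil.mem_WL'.2 fun J => ?_
  induction J with
  | zero => exact Fil.WT_zero _
  | succ J ih =>
    intro j hj
    have h1 := add_mem (Fil.WL.WT hx (J + 1)) (Fil.WT_p_mul ih) j hj
    rw [Dop_apply, sub_add_cancel, coeff_si_pow] at h1
    rw [← rt_pow_pp (p := p) h (x.coeff j)]
    exact Fil.pow_mem h1 _

theorem mw_Ua [Pf p L] {E : Type} [DecidableEq E] (f : K →+* L) (a : E → WittVector p K) :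
    mw f (Ua h a) = Ua h fun i => wm p f (a i) := by
  refine Matrix.ext fun i j => ?_
  rcases i with i | i <;> rcases j with j | j
  · simp [Ua, mw, Matrix.one_apply, apply_ite (wm p f)]
  · exact wm_si_pow f _ _
  · exact map_zero (wm p f)
  · simp [Ua, mw, Matrix.one_apply, apply_ite (wm p f)]

theorem wm_rho_iter [Pf p L] (f : K →+* L) (l : ℕ) (x : WittVector p K) :
    wm p f ((rho h)^[l] x) = (rho h)^[l] (wm p f x) :=
  Function.Semiconj.iterate_right (wm_rho f h) l x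

/-- the correction of the lift -/
def corr (h l : ℕ) (x : WittVector p K) : WittVector p K :=
  ∑ j ∈ Finset.range l, dv ((rho h)^[j] x)

theorem rho_iter (l : ℕ) (x : WittVector p K) : (rho h)^[l] x = x + Dop p K h (corr h l x) := by
  induction l with
  | zero => simp [corr]
  | succ l ih =>
    rw [Function.iterate_succ_apply', rho_eq, corr, Finset.sum_range_succ, map_add, ← add_assoc,
      ← corr, ← ih]

theorem corr_mem (hh : 1 ≤ h) {x : WittVector p K} {t : ℝ} (ht : 0 ≤ t) (hx : x ∈ F.WL t) (l : ℕ) :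
    corr h l x ∈ F.WL t := sum_mem fun j _ => Fil.WL_dv (Rc.iter_mem hh ht hx j)

theorem Dop_mul {x y : WittVector p K} (hx : (si p K ^ h) x = x) :
    Dop p K h (x * y) = x * Dop p K h y := by
  rw [Dop_apply, Dop_apply, map_mul, hx]
  ring

theorem Dop_si (j : ℕ) (x : WittVector p K) :
    Dop p K h ((si p K ^ j) x) = (si p K ^ j) (Dop p K h x) := by
  induction j with
  | zero => rfl
  | succ j ih =>
    rw [pow_succ', RingHom.mul_def, RingHom.comp_apply, RingHom.comp_apply, ← ih]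
    exact (wm_Dop (rt p K) h _).symm

theorem Dop_Ua {E : Type} [DecidableEq E] {a : E → WittVector p K}
    (ha : ∀ i, Dop p K h (a i) ∈ F.WL 1) : F.MW 1 ((Ua h a).map (Dop p K h)) := by
  rintro (i | i) (j | j)
  · exact Fil.WL_Dop h zero_le_one (Fil.WL_le (Fil.MW.one i j) zero_le_one)
  · change Dop p K h ((si p K ^ (j : ℕ)) (a i)) ∈ _
    rw [Dop_si]
    exact Fil.WL_le (Fil.WL_si_pow (ha i) j)
      (div_le_self zero_le_one (one_le_pow₀ (by linarith [two_le_p (p := p)])))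
  · exact Fil.WL_Dop h zero_le_one (zero_mem _)
  · exact Fil.WL_Dop h zero_le_one (Fil.WL_le (Fil.MW.one i j) zero_le_one)

end aux

variable {R : Type} [CommRing R]

variable (p h c) in
/-- the data of the big ring -/
structure ND (v : R) (AA : Type) [CommRing AA] [Algebra R AA] [Pf p AA] where
  hh : 1 ≤ h
  hc : 0 < c
  /-- the parameters -/
  u : ℕ → AA
  /-- the isomorphism -/
  μ : Matrix (Fin c ⊕ Fin h) (Fin (h + c)) (WittVector p AA)
  /-- its inverse -/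
  ν : Matrix (Fin (h + c)) (Fin c ⊕ Fin h) (WittVector p AA)
  iso : Iso (V0 p (Fin c) h _) (Au p (h + c) u) μ ν
  u0 : ∀ i < h, u i = 0
  uint : ∀ i, IsIntegral R (u i)
  uh : u h ^ p ^ h = algebraMap R AA v
  /-- the inverse of `v` -/
  vi : AA
  v_vi : algebraMap R AA v * vi = 1
  loc : ∀ x : AA, ∃ N : ℕ, IsIntegral R (algebraMap R AA v ^ N * x)
  top : ∀ S : Subring AA, (∀ x ∈ S, rt p AA x ∈ S) → (∀ r, algebraMap R AA r ∈ S) →
    (∀ i j n, (μ i j).coeff n ∈ S) → (∀ j i n, (ν j i).coeff n ∈ S) → S = ⊤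

namespace ND

variable {v : R} {AA : Type} [CommRing AA] [Algebra R AA] [Pf p AA] (D : ND p h c v AA)

/-- the pole filtration -/
def pl : Fil p AA :=
  Fil.pole (integralClosure R AA).toSubring (Units.mkOfMulEqOne _ _ D.v_vi) isIntegral_algebraMap
    fun _ hx => IsIntegral.of_pow (p_pos (p := p)) hx

theorem pl_closed : D.pl.Closed := Fil.closed_pole

theorem pl_exh : D.pl.Exh := Fil.exh_pole D.loc

theorem pl_int {x : AA} (hx : IsIntegral R x) : x ∈ D.pl.F 0 := Fil.pole_of_mem hx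

theorem int_of_pl {x : AA} {t : ℝ} (hx : x ∈ D.pl.F t) {N : ℕ} (hN : t < N) :
    IsIntegral R (algebraMap R AA v ^ N * x) := Fil.pow_mul_of_pole hx hN

theorem ex0 : ∃ (a : Fin c → WittVector p AA) (t : ℝ), 0 ≤ t ∧
    (∀ l, Dop p AA h (a l) ∈ D.pl.WL t) ∧ D.pl.MW t (Ua h (-a) * D.μ) ∧
    D.pl.MW t (D.ν * Ua h a) := by
  have hA := Au_mem (n := h + c) fun i => D.pl_int (D.uint i)
  obtain ⟨B, hB, e⟩ := Au_inv (by have := D.hc; omega) hA
  obtain ⟨a, t, h1, h2, h3, h4, -⟩ := b0 D.pl_closed D.pl_exh D.hh (fun i j => ⟨0, hA i j⟩)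
    (fun i j => ⟨0, hB i j⟩) e D.iso.nm D.iso.mn D.iso.symm.eq
  exact ⟨a, t, h1, h2, h3, h4⟩

/-- a bounded lift -/
def a0 : Fin c → WittVector p AA := D.ex0.choose

/-- its bound -/
def t0 : ℝ := D.ex0.choose_spec.choose

theorem t0_nonneg : 0 ≤ D.t0 := D.ex0.choose_spec.choose_spec.1

theorem a0_mem (l : Fin c) : Dop p AA h (D.a0 l) ∈ D.pl.WL D.t0 :=
  D.ex0.choose_spec.choose_spec.2.1 l

variable (p h) in
/-- the weight of `1 / v` -/
def _root_.P261.Fl.ee : ℝ := p ^ h * 6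

theorem _root_.P261.Fl.one_le_ee : 1 ≤ ee p h := by
  have := one_le_pow₀ (n := h) (show (1 : ℝ) ≤ p by linarith [two_le_p (p := p)])
  rw [ee]
  linarith

theorem exl : ∃ l : ℕ, ee p h * D.t0 ≤ ((p : ℝ) ^ h) ^ l :=
  (pow_unbounded_of_one_lt _ (by linarith [Rc.two_le_q (p := p) D.hh])).imp fun _ => le_of_lt

/-- the number of moves -/
def l0 : ℕ := D.exl.choose

/-- the standard lift -/
def a (i : Fin c) : WittVector p AA := D.a0 i + corr h D.l0 (Dop p AA h (D.a0 i))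

theorem Dop_a (i : Fin c) : Dop p AA h (D.a i) = (rho h)^[D.l0] (Dop p AA h (D.a0 i)) := by
  rw [a, map_add, rho_iter]

theorem fr : D.pl.MW (D.t0 + D.t0) (Ua h (-D.a) * D.μ) ∧ D.pl.MW (D.t0 + D.t0) (D.ν * Ua h D.a) := by
  have h1 := fun i => corr_mem D.hh D.t0_nonneg (D.a0_mem i) D.l0
  obtain ⟨-, -, h2, h3⟩ := D.ex0.choose_spec.choose_spec
  have h4 := (C1.Ua_mem (h := h) D.t0_nonneg fun i => neg_mem (h1 i)).mul h2
  have h5 := h3.mul (C1.Ua_mem (h := h) D.t0_nonneg h1)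
  rw [← Matrix.mul_assoc, Ua_mul] at h4
  rw [Matrix.mul_assoc, Ua_mul] at h5
  refine ⟨?_, h5⟩
  rw [show -D.a = (fun i => -corr h D.l0 (Dop p AA h (D.a0 i))) + -D.a0 from
    funext fun i => neg_add_rev _ _]
  exact h4

/-- the generators -/
def g : Option (Fin c) → AA := fun o => o.elim D.vi fun i => (Dop p AA h (D.a i)).coeff 0

variable (p h c) in
/-- their weights -/
def _root_.P261.Fl.wt : Option (Fin c) → ℝ := fun o => o.elim (ee p h) fun _ => 1

theorem _root_.P261.Fl.one_le_wt : ∀ o, 1 ≤ wt p h c o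
  | none => one_le_ee
  | some _ => le_rfl

/-- the filtration -/
def b : Fil p AA := gF p R D.g (wt p h c)

theorem b_closed : D.b.Closed := closed_gF

theorem b_int {x : AA} (hx : IsIntegral R x) : x ∈ D.b.F 0 := int_gF hx

theorem b_vi : D.vi ∈ D.b.F (ee p h) := g_gF (g := D.g) none

section maps

variable [Pf p K] {F : Fil p K} {f : AA →+* K}

theorem pl_maps (hF : F.Closed) (h0 : ∀ x, IsIntegral R x → f x ∈ F.F 0)
    (hv : f D.vi ∈ F.F (ee p h)) {t : ℝ} (ht : 0 ≤ t) {x : AA} (hx : x ∈ D.pl.F t) :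
    f x ∈ F.F (ee p h * t) := by
  refine hF.of_pow (b := ee p h) fun k => Fil.root_pow k ?_
  have h1 := h0 _ (D.int_of_pl (Fil.pow_mem hx (p ^ k)) (Nat.lt_floor_add_one _ |>.trans_eq
    (Nat.cast_succ _).symm))
  have h2 := F.mul_mem (Fil.pow_mem hv (⌊((p ^ k : ℕ) : ℝ) * t⌋₊ + 1)) h1
  rw [← map_pow, ← map_mul, ← mul_assoc, ← mul_pow, mul_comm D.vi, D.v_vi, one_pow, one_mul,
    map_pow] at h2
  refine Fil.le h2 ?_
  have h3 := Nat.floor_le (show 0 ≤ ((p ^ k : ℕ) : ℝ) * t by positivity)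
  have h4 := one_le_ee (p := p) (h := h)
  rw [mul_add, mul_div_cancel₀ _ (pow_pos p_pos' k).ne']
  push_cast at h3 ⊢
  nlinarith

theorem pl_WL (hF : F.Closed) (h0 : ∀ x, IsIntegral R x → f x ∈ F.F 0)
    (hv : f D.vi ∈ F.F (ee p h)) {t : ℝ} (ht : 0 ≤ t) {x : WittVector p AA} (hx : x ∈ D.pl.WL t) :
    wm p f x ∈ F.WL (ee p h * t) := Fil.mem_WL.2 fun j => by
  rw [mul_left_comm]
  exact D.pl_maps hF h0 hv (by positivity) (Fil.mem_WL.1 hx j)

theorem core (hF : F.Closed) (h0 : ∀ x, IsIntegral R x → f x ∈ F.F 0)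
    (hv : f D.vi ∈ F.F (ee p h)) {a' : Fin c → WittVector p K}
    (ha : ∀ l, Dop p K h (a' l) ∈ F.WL 1) {N : ℝ} (hN : ∀ l, wm p f (D.a l) - a' l ∈ F.WL N) :
    Fil.Maps f D.b F ∧ ∀ l, wm p f (D.a l) - a' l ∈ F.WL 1 := by
  have h1 := fun l => (rec_ h D.l0 K F _ _ D.hh (D.pl_WL hF h0 hv D.t0_nonneg (D.a0_mem l))
    D.exl.choose_spec).2 _ _ N (ha l) (hN l) (by
      rw [← wm_rho_iter, ← D.Dop_a, wm_Dop, map_sub, add_sub_cancel])
  refine ⟨gF_maps hF h0 ?_, fun l => (h1 l).2⟩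
  rintro (_ | l)
  · exact hv
  · have h2 := Fil.mem_WL.1 (h1 l).1 0
    rwa [← wm_rho_iter, ← D.Dop_a, pow_zero, one_mul] at h2

end maps

theorem b_exh : D.b.Exh := fun x => (D.pl_exh x).elim fun t ht =>
  ⟨_, D.pl_maps (f := RingHom.id AA) D.b_closed (fun _ => D.b_int) D.b_vi (le_max_right t 0)
    (Fil.le ht (le_max_left _ _))⟩

theorem a_mem (l : Fin c) : Dop p AA h (D.a l) ∈ D.b.WL 1 := by
  rw [D.Dop_a]
  exact (rec_ h D.l0 AA D.b _ _ D.hh (D.pl_WL (f := RingHom.id AA) D.b_closed (fun _ => D.b_int)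
    D.b_vi D.t0_nonneg (D.a0_mem l)) D.exl.choose_spec).1 (D.Dop_a l ▸ g_gF (g := D.g) (some l))

/-- **TAUT** -/
theorem taut : (vtx D.a D.μ D.ν).IsZ D.b :=
  have H := fun {x} => D.pl_WL (f := RingHom.id AA) (x := x) D.b_closed (fun _ => D.b_int) D.b_vi
    (add_nonneg D.t0_nonneg D.t0_nonneg)
  zof D.b_closed D.hh D.iso (Au_mem fun i => D.b_int (D.uint i)) D.a_mem
    (fun i j => H (D.fr.1 i j)) fun i j => H (D.fr.2 i j)

theorem iso_map [Pf p K] (f : AA →+* K) :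
    Iso (V0 p (Fin c) h _) (Au p (h + c) fun i => f (D.u i)) (mw f D.μ) (mw f D.ν) := by
  have := D.iso.map f
  rwa [mw_V0, mw_Au] at this

/-- **UNIV** -/
theorem univ [Pf p K] {F : Fil p K} (hF : F.Closed) {f : AA →+* K}
    (hR : ∀ r, f (algebraMap R AA r) ∈ F.F 0) {a' : Fin c → WittVector p K}
    (hZ : (vtx a' (mw f D.μ) (mw f D.ν)).IsZ F) :
    Fil.Maps f D.b F ∧ ∀ l, wm p f (D.a l) - a' l ∈ F.WL 1 := by
  obtain ⟨h1, h2, -, -, h3, h4⟩ := isZ_vtx.1 hZ
  have h5 := fun l => finF_Dop (finF_WL (h1 l))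
  have h6 := (C1.Ua_mem (h := h) le_rfl h5).mul (F := finF F) fun i j => finF_WL (h3 i j)
  have h7 := Fil.MW.mul (F := finF F) (fun i j => finF_WL (h4 i j))
    (C1.Ua_mem (h := h) le_rfl fun l => neg_mem (h5 l))
  rw [← Matrix.mul_assoc, Ua_mul, add_neg_cancel, Ua_zero, Matrix.one_mul] at h6
  rw [Matrix.mul_assoc, Ua_mul, show (a' + fun l => -a' l) = 0 from add_neg_cancel a', Ua_zero,
    Matrix.mul_one] at h7
  have h8 := D.top ((finF F).zero.comap f) (fun x hx => by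
    refine (finF F).root (t := 0) ?_
    rw [← map_pow, rt_pow]
    exact hx) (fun r => ⟨0, hR r⟩) (fun i j n => Fil.mem_WL.1 (h6 i j) n)
    fun i j n => Fil.mem_WL.1 (h7 i j) n
  have h0 : ∀ x, IsIntegral R x → f x ∈ F.F 0 := fun x hx =>
    (show ∃ t, f x ∈ F.F t from h8.ge (Subring.mem_top x)).elim fun t ht => hF.of_integral ht
      (hx.map_of_comp_eq ((f.comp (algebraMap R AA)).codRestrict F.zero hR) f rfl)
  have hv : f D.vi ∈ F.F (ee p h) := by
    have h9 := inv_mem D.hh D.hc (fun i hi => by rw [D.u0 i hi, map_zero]) (D.iso_map f) hZ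
      (w := f ((rt p AA ^ h) D.vi)) (by
        rw [← map_mul, pow_pp_inj (p := p) (x := D.u h * (rt p AA ^ h) D.vi) (y := 1) h (by
          rw [mul_pow, D.uh, rt_pow_pp, D.v_vi, one_pow]), map_one])
    have := Fil.pow_mem h9 (p ^ h)
    rwa [← map_pow, rt_pow_pp, Nat.cast_pow] at this
  refine D.core hF h0 hv h1 (sub_mem_of (t := ee p h * (D.t0 + D.t0)) D.hh h2 h3 fun i j => ?_)
  rw [← mw_Ua, ← mw_mul]
  exact D.pl_WL hF h0 hv (add_nonneg D.t0_nonneg D.t0_nonneg) (D.fr.2 i j)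

theorem MW_int {I J : Type} {T : Matrix I J (WittVector p AA)}
    (hT : ∀ i j n, IsIntegral R ((T i j).coeff n)) : D.b.MW 0 T :=
  fun i j => Fil.mem_WL.2 fun n => by rw [mul_zero]; exact D.b_int (hT i j n)

/-- the translates of the tautological vertex -/
theorem taut_tr {u' : ℕ → AA} (hu : ∀ i, IsIntegral R (u' i))
    {T T' : Matrix (Fin (h + c)) (Fin (h + c)) (WittVector p AA)}
    (H : Iso (V0 p (Fin c) h _) (Au p (h + c) u') (D.μ * T) (T' * D.ν))
    (hT : ∀ i j n, IsIntegral R ((T i j).coeff n)) (hT' : ∀ i j n, IsIntegral R ((T' i j).coeff n)) :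
    (vtx D.a (D.μ * T) (T' * D.ν)).IsZ D.b := by
  obtain ⟨h1, -, -, -, h3, h4⟩ := isZ_vtx.1 D.taut
  refine zof D.b_closed D.hh H (Au_mem fun i => D.b_int (hu i)) h1 (t := 3) ?_ ?_
  · simpa only [add_zero, Matrix.mul_assoc] using h3.mul (D.MW_int hT)
  · simpa only [zero_add, Matrix.mul_assoc] using (D.MW_int hT').mul h4

/-- stability under the maps `μ ↦ μ T` -/
theorem stabG {f : AA →+* AA} {φ : R →+* R} (hf : ∀ r, f (algebraMap R AA r) = algebraMap R AA (φ r))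
    {T T' : Matrix (Fin (h + c)) (Fin (h + c)) (WittVector p AA)} (h1 : mw f D.μ = D.μ * T)
    (h2 : mw f D.ν = T' * D.ν) (hT : ∀ i j n, IsIntegral R ((T i j).coeff n))
    (hT' : ∀ i j n, IsIntegral R ((T' i j).coeff n)) :
    Fil.Maps f D.b D.b ∧ ∀ l, wm p f (D.a l) - D.a l ∈ D.b.WL 1 :=
  D.univ D.b_closed (fun r => hf r ▸ D.b_int isIntegral_algebraMap) (by
    rw [h1, h2]
    exact D.taut_tr (fun i => (D.uint i).map_of_comp_eq φ f (RingHom.ext fun r => (hf r).symm))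
      (h1 ▸ h2 ▸ D.iso_map f) hT hT')

/-- stability under the maps `μ ↦ G' μ` -/
theorem stabΓ (f : AA →ₐ[R] AA) {G G' : Matrix (Fin c ⊕ Fin h) (Fin c ⊕ Fin h) (WittVector p AA)}
    (h1 : mw (f : AA →+* AA) D.μ = G' * D.μ) (e : G' * G = 1)
    (hG : ∀ i j n, IsIntegral R ((G i j).coeff n)) (hG' : ∀ i j n, IsIntegral R ((G' i j).coeff n))
    (sG : ∀ i j, (si p AA ^ h) (G i j) = G i j) (sG' : ∀ i j, (si p AA ^ h) (G' i j) = G' i j)
    (z : ∀ j l, G' (.inr j) (.inl l) = 0) : Fil.Maps (f : AA →+* AA) D.b D.b := by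
  have h0 : ∀ x, IsIntegral R x → (f : AA →+* AA) x ∈ D.b.F 0 := fun x hx => D.b_int (hx.map f)
  have hv : (f : AA →+* AA) D.vi ∈ D.b.F (ee p h) := by
    have e1 := congrArg f D.v_vi
    rw [map_mul, map_one, f.commutes] at e1
    rw [show (f : AA →+* AA) D.vi = D.vi from
      (IsUnit.of_mul_eq_one _ D.v_vi).mul_left_cancel (e1.trans D.v_vi.symm)]
    exact D.b_vi
  obtain ⟨h2, -, -, -, -, h4⟩ := isZ_vtx.1 D.taut
  refine (D.core D.b_closed h0 hv (a' := fun l => (G' * Ua h D.a * G) (.inl l) (.inr ⟨0, D.hh⟩))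
    (fun l => ?_) (N := ee p h * (D.t0 + D.t0) + 3 + 0) fun l => ?_).1
  · have h5 := ((D.MW_int hG').mul (Dop_Ua h2)).mul (D.MW_int hG) (.inl l) (.inr ⟨0, D.hh⟩)
    rw [zero_add, add_zero] at h5
    convert h5 using 1
    simp only [Matrix.mul_apply, map_sum, map_apply]
    refine Finset.sum_congr rfl fun y _ => ?_
    rw [mul_comm, Dop_mul (sG _ _), mul_comm, map_sum]
    simp only [Dop_mul (sG' _ _)]
  · have h5 : D.b.MW (ee p h * (D.t0 + D.t0)) (mw (f : AA →+* AA) (Ua h (-D.a) * D.μ)) :=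
      fun i j => D.pl_WL D.b_closed h0 hv (add_nonneg D.t0_nonneg D.t0_nonneg) (D.fr.1 i j)
    have h6 := neg_mem ((h5.mul h4).mul (D.MW_int hG) (.inl l) (.inr ⟨0, D.hh⟩))
    rw [mw_mul, mw_Ua, h1, Matrix.mul_assoc _ (G' * D.μ), Matrix.mul_assoc G', ← Matrix.mul_assoc D.μ,
      D.iso.mn, Matrix.one_mul, Matrix.mul_assoc] at h6
    convert h6 using 1
    have h7 : ∀ j y, (G' * Ua h D.a * G) (.inr j) y =
        (1 : Matrix (Fin c ⊕ Fin h) (Fin c ⊕ Fin h) (WittVector p AA)) (.inr j) y := by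
      intro j y
      rw [← e, Matrix.mul_apply, Matrix.mul_apply]
      refine Finset.sum_congr rfl fun x _ => ?_
      congr 1
      rcases x with x | x <;> simp [Matrix.mul_apply, Ua, z, Matrix.one_apply]
    generalize G' * Ua h D.a * G = M at h7
    simp [Matrix.mul_apply, Ua, h7, Matrix.one_apply]
    ring

theorem bd (β : ℝ) : ∃ N : ℕ, ∀ x ∈ D.b.F β, IsIntegral R (algebraMap R AA v ^ N * x) := by
  obtain ⟨t, ht, H⟩ := D.pl_exh.finite D.g
  obtain ⟨N, hN⟩ := exists_nat_gt (t * β)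
  exact ⟨N, fun x hx => D.int_of_pl (gF_maps (f := RingHom.id AA) (closed_scale D.pl_closed ht)
    (fun y hy => Fil.le (F := D.pl) (D.pl_int hy) (mul_zero t).ge)
    (fun o => Fil.le (F := D.pl) (H o) (le_mul_of_one_le_right ht (one_le_wt o))) β x hx) hN⟩

variable [Algebra (ZMod p) R] [Algebra (ZMod p) AA] [IsScalarTower (ZMod p) R AA]

/-- the filtration with its properties -/
def fld {G Γ : Type} {Φ : G → AA →+* AA} {γ : Γ → AA →ₐ[R] AA} (hΦ : ∀ g, Fil.Maps (Φ g) D.b D.b)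
    (hγ : ∀ δ, Fil.Maps (γ δ : AA →+* AA) D.b D.b) : P.FlD p v D.vi Φ γ where
  b := D.b
  int _ := D.b_int
  e := ee p h
  e_nonneg := zero_le_one.trans one_le_ee
  vi_mem := D.b_vi
  b_Φ := hΦ
  b_γ := hγ
  bd := D.bd
  gen := by
    classical
    obtain ⟨t, -, H⟩ := D.pl_exh.finite D.g
    obtain ⟨M, hM⟩ := exists_nat_gt t
    refine ⟨Finset.univ.image D.g, fun n => ?_⟩
    obtain ⟨C, hC⟩ := gen_gF isIntegral_algebraMap (fun o => D.int_of_pl (H o) hM)
      (fun o => zero_le_one.trans (one_le_wt (p := p) (h := h) o)) n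
    exact ⟨C, fun T _ hT => hC T fun o => hT _ (Finset.mem_image_of_mem _ (Finset.mem_univ o))⟩

end ND

end P261.Fl
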